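import Vale.Agent.P249.AllD.Main

/-!
# Dimension reduction in `L_p` at every distortion

For every `p > 1`, every `D > 1` and every `δ > 0`, every `n`-point subset of every `L_p` embeds with
distortion at most `D` into `ℓ_p^d` with `d ≤ C n ^ δ`. In particular `d_p(n, D) = o(n)`.
-/

namespace Vale.Agent.Results.P249.EveryDistortion

open MeasureTheory

theorem result :
    ∀ p : ℝ, 1 < p → ∀ D : ℝ, 1 < D → ∀ δ : ℝ, 0 < δ → ∃ C : ℝ,
      ∀ (Ω : Type*) (_ : MeasurableSpace Ω) (μ : Measure Ω)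
        (X : Finset (Lp ℝ (ENNReal.ofReal p) μ)), 2 ≤ X.card →
        ∃ d : ℕ, (d : ℝ) ≤ C * (X.card : ℝ) ^ δ ∧
          ∃ (f : Lp ℝ (ENNReal.ofReal p) μ → Fin d → ℝ) (s : ℝ), 0 < s ∧
            ∀ x ∈ X, ∀ y ∈ X, s * ‖x - y‖ ≤ (∑ k, |f x k - f y k| ^ p) ^ (1 / p) ∧
              (∑ k, |f x k - f y k| ^ p) ^ (1 / p) ≤ D * s * ‖x - y‖ :=
  Vale.Agent.P249.AllD.mainPin

end Vale.Agent.Results.P249.EveryDistortion
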