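import Mathlib
import Vale.Agent.P249.LowerPoints

/-!
For `p > 2` dimension reduction in `L_p` needs dimension `(log n / log log n) ^ (p / 2)`:
the analogue of the Johnson–Lindenstrauss bound `O(log n)` fails.
-/

namespace Vale.Agent.Results.P249.LogPowerLower

open Finset Vale.Agent.P249.Lower

/-- For `p > 2` and `D ≥ 1` some `n`-point subsets of `ℓ_p^m` admit no map of distortion `D` into
`ℓ_p^d` unless `d ≥ c (log n / log log n) ^ (p / 2)`. -/
theorem result (p : ℝ) (hp : 2 < p) (D : ℝ) (hD : 1 ≤ D) :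
    ∃ c : ℝ, 0 < c ∧ ∃ n₀ : ℕ, ∀ n : ℕ, n₀ ≤ n →
      ∃ (m : ℕ) (X : Finset (Fin m → ℝ)), X.card = n ∧
        ∀ (d : ℕ) (f : (Fin m → ℝ) → Fin d → ℝ) (s : ℝ), 0 < s →
          (∀ x ∈ X, ∀ y ∈ X, s * (∑ k, |x k - y k| ^ p) ^ (1 / p) ≤
                (∑ k, |f x k - f y k| ^ p) ^ (1 / p) ∧
              (∑ k, |f x k - f y k| ^ p) ^ (1 / p) ≤
                D * s * (∑ k, |x k - y k| ^ p) ^ (1 / p)) →
          c * (Real.log n / Real.log (Real.log n)) ^ (p / 2) ≤ d := by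
  classical
  have hp0 : 0 < p := by linarith
  have hm := momC_one_le (show 1 ≤ p by linarith)
  set Q := ⌈4 * (D * momC p) + 4⌉₊ with hQd
  set q := ⌈p⌉₊ with hqd
  have hQ : 4 * (D * momC p) + 4 ≤ (Q : ℝ) := Nat.le_ceil _
  have hq : p ≤ (q : ℝ) := Nat.le_ceil _
  have hQ1 : 1 ≤ Q := by
    have : (1 : ℝ) ≤ Q := by nlinarith
    exact_mod_cast this
  set C := 2 ^ p * Real.exp 1 * momC p * (D * momC p) ^ p with hC
  have hC0 : 0 < C := by
    have : 0 < D * momC p := by positivity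
    positivity
  set E := 2 * (Real.log (3 * Q) + 2 * ((q : ℝ) + 2)) with hE
  have h3Q : 0 ≤ Real.log (3 * (Q : ℝ)) :=
    Real.log_nonneg (by
      have : (1 : ℝ) ≤ Q := by exact_mod_cast hQ1
      linarith)
  have hE0 : 0 < E := by positivity
  refine ⟨1 / (E ^ (p / 2) * C), by positivity, max (cnt Q q 1) ⌈Real.exp 4⌉₊, fun n hn => ?_⟩
  have hn1 : cnt Q q 1 ≤ n := le_of_max_le_left hn
  have hn4 : Real.exp 4 ≤ n :=
    (Nat.le_ceil _).trans (by exact_mod_cast le_of_max_le_right hn)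
  have hn0 : (0 : ℝ) < n := (Real.exp_pos 4).trans_le hn4
  have hl4 : 4 ≤ Real.log n := (Real.le_log_iff_exp_le hn0).2 hn4
  have hll : 1 ≤ Real.log (Real.log n) := by
    rw [Real.le_log_iff_exp_le (by linarith)]
    linarith [Real.exp_one_lt_d9]
  have hex : ∃ j, n < cnt Q q j := ⟨n, Nat.lt_two_pow_self.trans_le (two_pow_le_cnt Q q n hQ1)⟩
  set j := Nat.find hex with hj
  have hjn : n < cnt Q q j := Nat.find_spec hex
  have hj2 : 2 ≤ j := by
    by_contra h
    interval_cases j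
    · simp [cnt] at hjn
      subst hjn
      simp at hn0
    · omega
  set k := j - 1 with hk
  have hkn : cnt Q q k ≤ n := Nat.not_lt.1 (Nat.find_min hex (by omega))
  obtain ⟨X, hXc, hX⟩ := exists_hard_set (k := k) (by omega) hp.le hD hQ hq
  have : Nonempty (Fin (Fintype.card (Fin k → Bool))) := ⟨⟨0, Fintype.card_pos⟩⟩
  obtain ⟨Y, hXY, hY⟩ := Infinite.exists_superset_card_eq X n (hXc.trans hkn)
  refine ⟨_, Y, hY, fun d f s hs hf => ?_⟩
  have hd := hX d f s hs fun x hx y hy => hf x (hXY hx) y (hXY hy)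
  rw [← hC] at hd
  set L := Real.log n with hL
  set LL := Real.log L with hLL
  -- the grid size is at least logarithmic
  have hklog : (k : ℝ) * Real.log 2 ≤ L := by
    have h : ((2 : ℝ) ^ k) ≤ n := by exact_mod_cast (two_pow_le_cnt Q q k hQ1).trans hkn
    have := Real.log_le_log (by positivity) h
    rwa [Real.log_pow] at this
  have hk3 : (k : ℝ) + 3 ≤ L ^ 2 := by
    have h2 : (1 : ℝ) / 2 ≤ Real.log 2 := by linarith [Real.log_two_gt_d9]
    nlinarith [(Nat.cast_nonneg k : (0 : ℝ) ≤ k)]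
  have hkj : j = k + 1 := by omega
  have hlogn : L ≤ E * k * LL := by
    have hQr : (1 : ℝ) ≤ Q := by exact_mod_cast hQ1
    have hb : ((2 * ((j + 2) * res Q q j) + 1 : ℕ) : ℝ) ≤ 3 * Q * ((k : ℝ) + 3) ^ (q + 2) := by
      push_cast [hkj, res]
      have h1 : ((k : ℝ) + 1 + 1) ^ (q + 1) ≤ ((k : ℝ) + 3) ^ (q + 1) :=
        pow_le_pow_left₀ (by positivity) (by linarith) _
      have h2 : (1 : ℝ) ≤ Q * ((k : ℝ) + 3) ^ (q + 2) :=
        one_le_mul_of_one_le_of_one_le hQr (one_le_pow₀ (by linarith [(Nat.cast_nonneg k : (0 : ℝ) ≤ k)]))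
      calc 2 * (((k : ℝ) + 1 + 2) * ((Q : ℝ) * ((k : ℝ) + 1 + 1) ^ (q + 1))) + 1
          ≤ 2 * (((k : ℝ) + 3) * ((Q : ℝ) * ((k : ℝ) + 3) ^ (q + 1))) + 1 := by
            rw [show (k : ℝ) + 1 + 2 = (k : ℝ) + 3 by ring]
            gcongr
        _ ≤ _ := by
            rw [show (q : ℕ) + 2 = q + 1 + 1 by ring, pow_succ _ (q + 1)] at h2 ⊢
            nlinarith
    have h1 : L ≤ Real.log (cnt Q q j : ℕ) :=
      Real.log_le_log hn0 (by exact_mod_cast hjn.le)
    rw [cnt, Nat.cast_pow, Real.log_pow] at h1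
    have h2 := Real.log_le_log
      (show (0 : ℝ) < ((2 * ((j + 2) * res Q q j) + 1 : ℕ) : ℝ) by positivity) hb
    rw [Real.log_mul (by positivity) (by positivity), Real.log_pow] at h2
    have h3 : Real.log ((k : ℝ) + 3) ≤ 2 * LL := by
      have := Real.log_le_log (by positivity) hk3
      rwa [Real.log_pow, Nat.cast_ofNat] at this
    have h4 : Real.log (3 * Q) + ((q + 2 : ℕ) : ℝ) * Real.log ((k : ℝ) + 3) ≤ E / 2 * LL := by
      have := mul_le_mul_of_nonneg_left h3 (Nat.cast_nonneg (q + 2) : (0 : ℝ) ≤ ((q + 2 : ℕ) : ℝ))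
      rw [hE]
      push_cast at this ⊢
      nlinarith
    have h5 : (j : ℝ) ≤ 2 * k := by exact_mod_cast (show j ≤ 2 * k by omega)
    calc L ≤ _ := h1
      _ ≤ (j : ℝ) * (E / 2 * LL) := mul_le_mul_of_nonneg_left (h2.trans h4) (Nat.cast_nonneg _)
      _ ≤ (2 * k) * (E / 2 * LL) := by gcongr
      _ = _ := by ring
  have hsk : Real.sqrt (k : ℝ) ^ p = (k : ℝ) ^ (p / 2) := by
    rw [Real.sqrt_eq_rpow, ← Real.rpow_mul (Nat.cast_nonneg _)]
    ring_nf
  rw [hsk] at hd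
  rw [div_mul_eq_mul_div, one_mul, div_le_iff₀ (by positivity)]
  calc (L / LL) ^ (p / 2) ≤ (E * k) ^ (p / 2) := by
        gcongr
        rw [div_le_iff₀ (by linarith)]
        exact hlogn
    _ = E ^ (p / 2) * (k : ℝ) ^ (p / 2) := Real.mul_rpow hE0.le (Nat.cast_nonneg _)
    _ ≤ E ^ (p / 2) * (C * d) := mul_le_mul_of_nonneg_left hd (by positivity)
    _ = _ := by ring

end Vale.Agent.Results.P249.LogPowerLower
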