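import Mathlib
import Vale.Agent.P249.PolyLower.Main

/-!
For `p ≠ 2` and distortion close enough to one, dimension reduction in `L_p` needs more than any
prescribed power of `log n / log log n`.
-/

namespace Vale.Agent.Results.P249.PolylogLower

open Finset Vale.Agent.P249.PolyLower

/-- For `p ≥ 1`, `p ≠ 2` and every `A` there is `D > 1` such that some `n`-point subsets of
`ℓ_p^m` admit no map of distortion `D` into `ℓ_p^d` unless `d ≥ c (log n / log log n) ^ A`. -/
theorem result (p : ℝ) (hp : 1 ≤ p) (hp2 : p ≠ 2) (A : ℝ) (hA : 0 < A) :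
    ∃ D : ℝ, 1 < D ∧ ∃ c : ℝ, 0 < c ∧ ∃ n₀ : ℕ, ∀ n : ℕ, n₀ ≤ n →
      ∃ (m : ℕ) (X : Finset (Fin m → ℝ)), X.card = n ∧
        ∀ (d : ℕ) (f : (Fin m → ℝ) → Fin d → ℝ) (s : ℝ), 0 < s →
          (∀ x ∈ X, ∀ y ∈ X, s * (∑ k, |x k - y k| ^ p) ^ (1 / p) ≤
                (∑ k, |f x k - f y k| ^ p) ^ (1 / p) ∧
              (∑ k, |f x k - f y k| ^ p) ^ (1 / p) ≤
                D * s * (∑ k, |x k - y k| ^ p) ^ (1 / p)) →
          c * (Real.log n / Real.log (Real.log n)) ^ A ≤ d := by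
  classical
  set j := ⌈A⌉₊ with hjd
  obtain ⟨D, a, N₀, hD, ha, hN₀, hard⟩ := exists_hard p hp hp2 j
  have har : (1 : ℝ) ≤ a := by exact_mod_cast ha
  refine ⟨D, hD, 1 / ((4 * (a : ℝ)) ^ j * (2 * D) ^ p), by positivity,
    max (N₀ ^ (a * N₀)) 3, fun n hn => ?_⟩
  have hn1 : N₀ ^ (a * N₀) ≤ n := le_of_max_le_left hn
  have hn3 : 3 ≤ n := le_of_max_le_right hn
  -- the number of directions
  have hex : ∃ i, n < i ^ (a * i) :=
    ⟨n + 1, (Nat.lt_succ_self n).trans_le (Nat.le_self_pow (Nat.mul_pos ha n.succ_pos).ne' _)⟩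
  have hi : n < Nat.find hex ^ (a * Nat.find hex) := Nat.find_spec hex
  have hiN : N₀ < Nat.find hex := by
    by_contra h
    push Not at h
    rcases Nat.eq_zero_or_pos (Nat.find hex) with h0 | h0
    · rw [h0] at hi; simp at hi; omega
    · have := (Nat.pow_le_pow_left h _).trans
        (Nat.pow_le_pow_right (show 0 < N₀ by omega) (Nat.mul_le_mul_left a h))
      omega
  obtain ⟨N, hN⟩ : ∃ N, Nat.find hex = N + 1 := ⟨Nat.find hex - 1, by omega⟩
  rw [hN] at hi hiN
  have hNn : N ^ (a * N) ≤ n := Nat.not_lt.1 (Nat.find_min hex (by omega))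
  obtain ⟨X, hXc, hX⟩ := hard N (by omega)
  -- move to coordinates and pad
  set m := Fintype.card (Idx N j)
  have hm : 0 < m := by
    simp only [m, Fintype.card_fun, Fintype.card_fin]
    exact pow_pos (by omega) _
  have : Nonempty (Fin m) := ⟨⟨0, hm⟩⟩
  set e := Fintype.equivFin (Idx N j)
  let Φ : (Idx N j → ℝ) ↪ (Fin m → ℝ) := (Equiv.arrowCongr e (Equiv.refl ℝ)).toEmbedding
  obtain ⟨Y, hXY, hY⟩ := Infinite.exists_superset_card_eq (X.map Φ) n
    (by rw [Finset.card_map]; exact hXc.trans hNn)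
  refine ⟨m, Y, hY, fun d f s hs hf => ?_⟩
  have hbl : BiLip p D X fun x => s⁻¹ • f (Φ x) := by
    intro x hx y hy
    have h := hf _ (hXY (Finset.mem_map_of_mem Φ hx)) _ (hXY (Finset.mem_map_of_mem Φ hy))
    have e1 : (∑ k, |Φ x k - Φ y k| ^ p) ^ (1 / p) = nm p (x - y) := by
      rw [nm]
      congr 1
      rw [← e.sum_comp]
      simp [Φ, Equiv.arrowCongr_apply]
    have e2 : (∑ k, |f (Φ x) k - f (Φ y) k| ^ p) ^ (1 / p) = nm p (f (Φ x) - f (Φ y)) := rfl
    rw [e1, e2] at h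
    rw [← smul_sub, nm_smul hp, abs_of_pos (inv_pos.2 hs)]
    exact ⟨(le_inv_mul_iff₀ hs).2 h.1, (inv_mul_le_iff₀ hs).2 (by linarith [h.2])⟩
  have hd := hX d _ hbl
  -- compare logarithms
  have hN3 : (3 : ℝ) ≤ N := by exact_mod_cast (show 3 ≤ N by omega)
  have hlogN : 1 ≤ Real.log N := by
    rw [Real.le_log_iff_exp_le (by linarith)]
    linarith [Real.exp_one_lt_d9]
  set L := Real.log n with hL
  set LL := Real.log L with hLL
  have hupper : L ≤ 4 * a * N * Real.log N := by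
    have h1 : L ≤ Real.log (((N + 1) ^ (a * (N + 1)) : ℕ) : ℝ) :=
      Real.log_le_log (by exact_mod_cast (show 0 < n by omega)) (by exact_mod_cast hi.le)
    push_cast [Real.log_pow] at h1
    have h2 : Real.log ((N : ℝ) + 1) ≤ 2 * Real.log N := by
      have := Real.log_le_log (show (0 : ℝ) < N + 1 by linarith)
        (show (N : ℝ) + 1 ≤ (N : ℝ) ^ 2 by nlinarith)
      rwa [Real.log_pow, Nat.cast_ofNat] at this
    have h3 : (a : ℝ) * ((N : ℝ) + 1) ≤ 2 * a * N := by nlinarith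
    calc L ≤ (a : ℝ) * ((N : ℝ) + 1) * Real.log ((N : ℝ) + 1) := h1
      _ ≤ (2 * a * N) * (2 * Real.log N) :=
          mul_le_mul h3 h2 (Real.log_nonneg (by linarith)) (by positivity)
      _ = _ := by ring
  have hlower : (N : ℝ) ≤ L := by
    have h1 : Real.log ((N ^ (a * N) : ℕ) : ℝ) ≤ L :=
      Real.log_le_log (by have : 0 < N ^ (a * N) := pow_pos (by omega) _; exact_mod_cast this)
        (by exact_mod_cast hNn)
    push_cast [Real.log_pow] at h1
    nlinarith [mul_nonneg (sub_nonneg.2 har) (show (0 : ℝ) ≤ N * Real.log N by positivity)]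
  have hLLN : Real.log N ≤ LL := Real.log_le_log (by linarith) hlower
  have hLL1 : 1 ≤ LL := hlogN.trans hLLN
  have hx1 : 1 ≤ L / LL := by
    rw [one_le_div (by linarith)]
    exact Real.log_le_self (by linarith)
  have hxN : L / LL ≤ 4 * a * N := by
    rw [div_le_iff₀ (by linarith)]
    exact hupper.trans (mul_le_mul_of_nonneg_left hLLN (by positivity))
  rw [div_mul_eq_mul_div, one_mul, div_le_iff₀ (by positivity)]
  calc (L / LL) ^ A ≤ (L / LL) ^ (j : ℝ) :=
        Real.rpow_le_rpow_of_exponent_le hx1 (Nat.le_ceil A)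
    _ ≤ (4 * a * N : ℝ) ^ (j : ℝ) := by gcongr
    _ = (4 * (a : ℝ)) ^ j * (N : ℝ) ^ j := by rw [Real.rpow_natCast, mul_pow]
    _ ≤ (4 * (a : ℝ)) ^ j * ((2 * D) ^ p * d) := mul_le_mul_of_nonneg_left hd (by positivity)
    _ = _ := by ring

end Vale.Agent.Results.P249.PolylogLower
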